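import Crest.Agent.R339.Iface
import Crest.Agent.R164.G3Aux

/-! # Row 339, part G (Guerra's bound): the interpolating Gaussian tower

We use the Gaussian towers of row 164 (`R164/TDefs`, `R164/GDefs`): level `0` carries the couplings,
level `l + 1` (`l < K`) carries the `l`-th layer of one-site fields, the exponent of level `l + 1` is
`c l / β`, the last level is the uniform average over the spins.  The Hamiltonian is
`β (sin θ · pairEnergy + cos θ · Σ_i σ_i z_i)`, `z_i = √(1/K) Σ_l g_{l,i}`. -/

set_option autoImplicit false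

namespace Crest.Agent.R339.G

open MeasureTheory ProbabilityTheory Real Crest.MathPhysics.SpinGlass Crest.Agent.R164

/-- parameters of the tower -/
structure Par where
  K : ℕ
  c : ℕ → ℝ
  β : ℝ
  K_pos : 0 < K
  c_pos : ∀ l, 0 < c l
  c_mono : Monotone c
  c_le : c K ≤ β

theorem Par.β_pos (p : Par) : 0 < p.β := lt_of_lt_of_le (p.c_pos _) p.c_le

theorem Par.c_div_le (p : Par) {l : ℕ} (h : l ≤ p.K) : p.c l / p.β ≤ 1 :=
  (div_le_one p.β_pos).2 ((p.c_mono h).trans p.c_le)

/-- the exponents: `e a = c (a - 1) / β` for `a ≤ K`, and `1` above -/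
noncomputable def Par.X (p : Par) : Expo where
  n := p.K + 1
  e := fun a => if a ≤ p.K then p.c (a - 1) / p.β else 1
  n_pos := by omega
  pos := by
    simp only [Nat.zero_le, if_true]
    exact div_pos (p.c_pos _) p.β_pos
  mono := by
    intro a b hab
    by_cases hb : b ≤ p.K
    · simp only [hb, hab.trans hb, if_true]
      exact div_le_div_of_nonneg_right (p.c_mono (by omega)) p.β_pos.le
    · by_cases ha : a ≤ p.K
      · simp only [ha, hb, if_true, if_false]
        exact p.c_div_le (by omega)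
      · simp only [ha, hb, if_false, le_refl]
  le_one := by
    intro a
    by_cases ha : a ≤ p.K
    · simp only [ha, if_true]
      exact p.c_div_le (by omega)
    · simp only [ha, if_false, le_refl]
  e01 := by
    have := p.K_pos
    simp only [Nat.zero_le, if_true, show 1 ≤ p.K from this]
  en := by simp

theorem Par.X_n (p : Par) : p.X.n = p.K + 1 := rfl

theorem Par.X_e (p : Par) (a : ℕ) : p.X.e a = if a ≤ p.K then p.c (a - 1) / p.β else 1 := rfl

theorem Par.X_e_succ (p : Par) {l : ℕ} (h : l < p.K) : p.X.e (l + 1) = p.c l / p.β := by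
  rw [p.X_e, if_pos (by omega), Nat.add_sub_cancel]

/-- Gaussian coordinates: couplings and layers of fields -/
abbrev Ix (n K : ℕ) := (Fin n × Fin n) ⊕ (Fin K × Fin n)

/-- states of the tower -/
abbrev St (n K : ℕ) := Unit × (Ix n K → ℝ) × (Fin n → Bool)

/-- the level of a Gaussian coordinate -/
def lev (p : Par) (n : ℕ) : Ix n p.K → Fin (p.X.n + 1) :=
  Sum.elim (fun _ => ⟨0, by omega⟩) (fun q => ⟨q.1.val + 1, by have := q.1.2; rw [p.X_n]; omega⟩)

@[simp] theorem lev_inl (p : Par) (n : ℕ) (q : Fin n × Fin n) : (lev p n (Sum.inl q)).val = 0 := rfl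

@[simp] theorem lev_inr (p : Par) (n : ℕ) (q : Fin p.K × Fin n) :
    (lev p n (Sum.inr q)).val = q.1.val + 1 := rfl

/-- the tower -/
noncomputable abbrev tw (p : Par) (n : ℕ) : Tower (St n p.K) :=
  gT p.X (Measure.dirac ()) (lev p n) (Fin n → Bool)

/-- the coefficient of a Gaussian coordinate in the Hamiltonian -/
noncomputable def co (n K : ℕ) : Ix n K → (Fin n → Bool) → ℝ :=
  Sum.elim
    (fun q σ => if q.1 < q.2 then 1 / √n * (spinSign (σ q.1) * spinSign (σ q.2)) else 0)
    (fun q σ => √(1 / K) * spinSign (σ q.2))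

/-- interpolation weights -/
noncomputable def wt (n K : ℕ) (s t : ℝ) : Ix n K → ℝ := Sum.elim (fun _ => s) (fun _ => t)

/-- the Hamiltonian `s · pairEnergy + t · Σ_i σ_i z_i` -/
noncomputable def Ham (n K : ℕ) (s t : ℝ) (x : St n K) : ℝ :=
  ∑ i, wt n K s t i * (x.2.1 i * co n K i x.2.2)

theorem abs_spinSign (b : Bool) : |spinSign b| = 1 := by cases b <;> simp [spinSign]

theorem spinSign_sq (b : Bool) : spinSign b ^ 2 = 1 := by cases b <;> simp [spinSign]

theorem meas_co (n K : ℕ) (i : Ix n K) : Measurable fun x : St n K => co n K i x.2.2 :=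
  (measurable_of_finite (co n K i)).comp (measurable_snd.comp measurable_snd)

theorem co_bdd (n K : ℕ) (i : Ix n K) : ∃ B : ℝ, ∀ σ, |co n K i σ| ≤ B :=
  ⟨∑ σ, |co n K i σ|, fun σ =>
    Finset.single_le_sum (f := fun σ => |co n K i σ|) (fun _ _ => abs_nonneg _) (Finset.mem_univ σ)⟩

theorem lg_term (p : Par) (n : ℕ) (i : Ix n p.K) :
    (tw p n).LG fun x => x.2.1 i * co n p.K i x.2.2 := by
  obtain ⟨B, hB⟩ := co_bdd n p.K i
  exact (lg_coord i).mul_bdd (meas_co n p.K i) (fun x => hB x.2.2)

theorem lg_Ham (p : Par) (n : ℕ) (s t : ℝ) : (tw p n).LG (Ham n p.K s t) :=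
  Tower.LG.sum Finset.univ fun i _ => (lg_term p n i).const_mul _

theorem Ham_eq (n K : ℕ) (s t : ℝ) (x : St n K) :
    Ham n K s t x = s * pairEnergy n (fun i j => x.2.1 (Sum.inl (i, j))) x.2.2 +
      t * ∑ i, spinSign (x.2.2 i) * (√(1 / K) * ∑ l, x.2.1 (Sum.inr (l, i))) := by
  unfold Ham pairEnergy
  rw [Fintype.sum_sum_type, Fintype.sum_prod_type, Fintype.sum_prod_type, Finset.sum_comm (s := Finset.univ (α := Fin K))]
  simp only [wt, co, Sum.elim_inl, Sum.elim_inr, Finset.mul_sum]
  congr 1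
  · refine Finset.sum_congr rfl fun i _ => Finset.sum_congr rfl fun j _ => ?_
    split_ifs <;> ring
  · refine Finset.sum_congr rfl fun i _ => Finset.sum_congr rfl fun j _ => ?_
    ring

end Crest.Agent.R339.G
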