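import Crest.Agent.R339.G.Defs

/-! # Row 339, part G: Guerra's interpolation -/

set_option autoImplicit false

namespace Crest.Agent.R339.G

open MeasureTheory ProbabilityTheory Real Crest.MathPhysics.SpinGlass Crest.Agent.R164

theorem in_sq {S : Type} [MeasurableSpace S] {T : Tower S} {H : S → ℝ} (h : T.LG H) {ι : Type}
    [Fintype ι] {s : ι → S → ℝ} (hs : ∀ i, T.Gr (s i)) (a : ℕ) (x : S) :
    (∑ i, T.E H a (s i) x ^ 2) ^ 2 ≤ ∑ i, ∑ j, T.E H a (fun y => s i y * s j y) x ^ 2 := by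
  set m : ι → ℝ := fun i => T.E H a (s i) x with hm
  set M : ι → ι → ℝ := fun i j => T.E H a (fun y => s i y * s j y) x with hM
  have g1 : T.Gr fun y => ∑ i, m i * s i y := Tower.Gr.sum _ fun i _ => (hs i).const_mul _
  have h1 := Tower.sq_E_le h g1 a x
  have e1 : T.E H a (fun y => ∑ i, m i * s i y) x = ∑ i, m i ^ 2 := by
    rw [Tower.E_sum (φ := fun i y => m i * s i y) _ h (fun i _ => (hs i).const_mul _)]
    refine Finset.sum_congr rfl fun i _ => ?_
    rw [Tower.E_const_mul, sq]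
  have e2 : T.E H a (fun y => (∑ i, m i * s i y) ^ 2) x = ∑ i, ∑ j, m i * m j * M i j := by
    have : (fun y => (∑ i, m i * s i y) ^ 2) =
        fun y => ∑ i, ∑ j, m i * m j * (s i y * s j y) := by
      funext y
      rw [sq, Finset.sum_mul_sum]
      exact Finset.sum_congr rfl fun i _ => Finset.sum_congr rfl fun j _ => by ring
    rw [this, Tower.E_sum (φ := fun i y => ∑ j, m i * m j * (s i y * s j y)) _ h
      (fun i _ => Tower.Gr.sum _ fun j _ => ((hs i).mul (hs j)).const_mul _)]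
    refine Finset.sum_congr rfl fun i _ => ?_
    rw [Tower.E_sum (φ := fun j y => m i * m j * (s i y * s j y)) _ h
      (fun j _ => ((hs i).mul (hs j)).const_mul _)]
    refine Finset.sum_congr rfl fun j _ => ?_
    rw [Tower.E_const_mul]
  rw [e1, e2] at h1
  have h2 : 0 ≤ ∑ i, ∑ j, (M i j - m i * m j) ^ 2 :=
    Finset.sum_nonneg fun i _ => Finset.sum_nonneg fun j _ => sq_nonneg _
  have e3 : ∑ i, ∑ j, (M i j - m i * m j) ^ 2 =
      ∑ i, ∑ j, M i j ^ 2 - 2 * ∑ i, ∑ j, m i * m j * M i j + (∑ i, m i ^ 2) ^ 2 := by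
    rw [sq (∑ i, m i ^ 2), Finset.sum_mul_sum]
    simp only [Finset.mul_sum, ← Finset.sum_sub_distrib, ← Finset.sum_add_distrib]
    exact Finset.sum_congr rfl fun i _ => Finset.sum_congr rfl fun j _ => by ring
  change (∑ i, m i ^ 2) ^ 2 ≤ ∑ i, ∑ j, M i j ^ 2
  linarith

theorem in_sym {n : ℕ} (f : Fin n → Fin n → ℝ) (hf : ∀ i j, f i j = f j i) :
    ∑ i, ∑ j, f i j = 2 * (∑ i, ∑ j, if i < j then f i j else 0) + ∑ i, f i i := by
  have e : ∀ i j, f i j = (if i < j then f i j else 0) + (if j < i then f j i else 0) +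
      (if i = j then f i i else 0) := by
    intro i j
    rcases lt_trichotomy i j with h | h | h
    · simp [h, h.ne, not_lt_of_gt h]
    · simp [h]
    · simp [h, h.ne', not_lt_of_gt h, hf i j]
  have e2 : (∑ i, ∑ j, if j < i then f j i else 0) = ∑ i, ∑ j, if i < j then f i j else 0 :=
    Finset.sum_comm
  rw [Finset.sum_congr rfl fun i _ => Finset.sum_congr rfl fun j _ => e i j]
  simp only [Finset.sum_add_distrib, e2, Finset.sum_ite_eq, Finset.mem_univ, if_true]
  ring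

/-- the spin at site `i` as an observable -/
noncomputable def sp (n K : ℕ) (i : Fin n) (x : St n K) : ℝ := spinSign (x.2.2 i)

theorem gr_sp (p : Par) (n : ℕ) (i : Fin n) : (tw p n).Gr (sp n p.K i) :=
  Tower.Gr.of_bdd (C := 1)
    ((measurable_of_finite (fun σ : Fin n → Bool => spinSign (σ i))).comp
      (measurable_snd.comp measurable_snd)) (fun _ => (abs_spinSign _).le)

theorem gr_co (p : Par) (n : ℕ) (i : Ix n p.K) : (tw p n).Gr fun x => co n p.K i x.2.2 := by
  obtain ⟨B, hB⟩ := co_bdd n p.K i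
  exact Tower.Gr.of_bdd (meas_co n p.K i) fun x => hB x.2.2

/-- pointwise form of `(R - q)² ≥ 0` -/
theorem in_point (p : Par) {n : ℕ} (hn : 0 < n) {H : St n p.K → ℝ} (h : (tw p n).LG H) (r : ℕ)
    (q : ℝ) (x : St n p.K) :
    q * ∑ i, (tw p n).E H r (sp n p.K i) x ^ 2 -
      ∑ k : Fin n × Fin n, (tw p n).E H r (fun y => co n p.K (Sum.inl k) y.2.2) x ^ 2 ≤
      1 / 2 + n * q ^ 2 / 2 := by
  have hn' : (0 : ℝ) < n := by exact_mod_cast hn
  have h1 := in_sq h (gr_sp p n) r x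
  set v := ∑ i, (tw p n).E H r (sp n p.K i) x ^ 2 with hv
  rw [in_sym _ (fun i j => by simp only [mul_comm])] at h1
  have e1 : ∑ i : Fin n, (tw p n).E H r (fun y => sp n p.K i y * sp n p.K i y) x ^ 2 = n := by
    have : ∀ i : Fin n, (fun y => sp n p.K i y * sp n p.K i y) = fun _ => (1 : ℝ) := fun i => by
      funext y
      rw [← sq]
      exact spinSign_sq _
    simp only [this, Tower.E_const]
    simp
  have e2 : ∑ k : Fin n × Fin n, (tw p n).E H r (fun y => co n p.K (Sum.inl k) y.2.2) x ^ 2 =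
      1 / n * ∑ i, ∑ j, if i < j then
        (tw p n).E H r (fun y => sp n p.K i y * sp n p.K j y) x ^ 2 else 0 := by
    rw [Fintype.sum_prod_type]
    simp only [Finset.mul_sum]
    refine Finset.sum_congr rfl fun i _ => Finset.sum_congr rfl fun j _ => ?_
    by_cases hij : i < j
    · simp only [co, Sum.elim_inl, hij, if_true]
      rw [Tower.E_const_mul, mul_pow, div_pow, one_pow, Real.sq_sqrt hn'.le]
      rfl
    · simp only [co, Sum.elim_inl, hij, if_false, Tower.E_const]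
      simp
  rw [e1] at h1
  rw [e2]
  set w := ∑ i, ∑ j, if i < j then
        (tw p n).E H r (fun y => sp n p.K i y * sp n p.K j y) x ^ 2 else 0
  have : (n : ℝ) * (q * v - 1 / n * w) ≤ n * (1 / 2 + n * q ^ 2 / 2) := by
    have e : (n : ℝ) * (q * v - 1 / n * w) = n * q * v - w := by field_simp
    rw [e]
    nlinarith [sq_nonneg (v - n * q)]
  exact le_of_mul_le_mul_left this hn'

theorem inv_co (n K : ℕ) (i j : Ix n K) : Inv i fun x : St n K => co n K j x.2.2 :=
  fun _ _ => rfl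

theorem pd_Ham (n K : ℕ) (s t : ℝ) (i : Ix n K) :
    PD i (Ham n K s t) fun x => wt n K s t i * co n K i x.2.2 := by
  have p1 := PD.g3_sum Finset.univ (fun j _ =>
    ((g3_pd_coord (Ω := Unit) (A := Fin n → Bool) i j).g3_mul_inv (inv_co n K i j)).g3_const_mul
      (wt n K s t j))
  refine p1.g3_congr fun x => ?_
  simp

/-- the square of a coefficient does not depend on the spins -/
noncomputable def cs (n K : ℕ) : Ix n K → ℝ :=
  Sum.elim (fun q => if q.1 < q.2 then 1 / (n : ℝ) else 0) (fun _ => 1 / (K : ℝ))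

theorem co_sq (n K : ℕ) (i : Ix n K) (σ : Fin n → Bool) : co n K i σ ^ 2 = cs n K i := by
  rcases i with q | q
  · simp only [co, cs, Sum.elim_inl]
    split_ifs
    · rw [mul_pow, mul_pow, spinSign_sq, spinSign_sq, div_pow, one_pow,
        Real.sq_sqrt (Nat.cast_nonneg n)]
      ring
    · simp
  · simp only [co, cs, Sum.elim_inr]
    rw [mul_pow, spinSign_sq, Real.sq_sqrt (by positivity), mul_one]

theorem in_ibp (p : Par) (n : ℕ) (s t : ℝ) (i : Ix n p.K) :
    ∫ y, y.2.1 i * co n p.K i y.2.2 ∂((tw p n).PP (Ham n p.K s t)) =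
      wt n p.K s t i * (cs n p.K i - p.X.tau (fun r => ∫ y,
        (tw p n).E (Ham n p.K s t) r (fun x => co n p.K i x.2.2) y ^ 2
          ∂((tw p n).PP (Ham n p.K s t))) (lev p n i).val) := by
  rw [ibp_PP i (lg_Ham p n s t) ((gr_co p n i).const_mul _) (pd_Ham n p.K s t i) (gr_co p n i)
    (Tower.Gr.const 0) (inv_co n p.K i i).g3_pd, mul_sub, ← p.X.g3_tau_mul]
  congr 1
  · have : (fun y : St n p.K => 0 + co n p.K i y.2.2 * (wt n p.K s t i * co n p.K i y.2.2)) =
        fun _ => wt n p.K s t i * cs n p.K i := by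
      funext y
      rw [← co_sq n p.K i y.2.2]
      ring
    rw [this]
    simp
  · congr 1
    funext r
    rw [← integral_const_mul]
    congr 1
    funext y
    rw [Tower.E_const_mul]
    ring

theorem in_swap (K : ℕ) (z : ℕ → ℝ) :
    ∑ l ∈ Finset.range K, ∑ r ∈ Finset.Icc (l + 1 + 1) (K + 1), z r =
      ∑ r ∈ Finset.Icc (0 + 1) (K + 1), ((r : ℝ) - 1) * z r := by
  rw [Finset.sum_comm' (t' := Finset.Icc (0 + 1) (K + 1)) (s' := fun r => Finset.range (r - 1))
    (fun l r => by simp only [Finset.mem_range, Finset.mem_Icc]; omega)]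
  refine Finset.sum_congr rfl fun r hr => ?_
  have h1 : 1 ≤ r := (Finset.mem_Icc.1 hr).1
  rw [Finset.sum_const, Finset.card_range, nsmul_eq_mul, Nat.cast_sub h1, Nat.cast_one]

theorem in_abel (e : ℕ → ℝ) (k : ℕ) :
    ∑ r ∈ Finset.Icc (0 + 1) (k + 1), (e r - e (r - 1)) * ((r : ℝ) - 1) ^ 2 =
      e (k + 1) * (k : ℝ) ^ 2 - ∑ l ∈ Finset.range k, e (l + 1) * (2 * l + 1) := by
  induction k with
  | zero => simp
  | succ k ih =>
    rw [Finset.sum_Icc_succ_top (by omega), ih, Finset.sum_range_succ]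
    simp only [Nat.add_sub_cancel]
    push_cast
    ring

/-- the bracket of the derivative -/
theorem in_bracket (p : Par) {n : ℕ} (hn : 0 < n) {H : St n p.K → ℝ} (h : (tw p n).LG H) :
    (∑ k : Fin n × Fin n, (cs n p.K (Sum.inl k) - p.X.tau (fun r => ∫ y,
        (tw p n).E H r (fun x => co n p.K (Sum.inl k) x.2.2) y ^ 2 ∂((tw p n).PP H)) 0)) -
      ∑ k : Fin p.K × Fin n, (cs n p.K (Sum.inr k) - p.X.tau (fun r => ∫ y,
        (tw p n).E H r (fun x => co n p.K (Sum.inr k) x.2.2) y ^ 2 ∂((tw p n).PP H))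
          (k.1.val + 1)) ≤
      -(2 * (n * ∑ l ∈ Finset.range p.K, p.c l * (2 * l + 1) / (4 * (p.K : ℝ) ^ 2)) / p.β) := by
  have hn' : (0 : ℝ) < n := by exact_mod_cast hn
  have hK : (0 : ℝ) < p.K := by exact_mod_cast p.K_pos
  have hβ := p.β_pos
  set U : ℕ → ℝ := fun r => ∫ y, ∑ k : Fin n × Fin n,
    (tw p n).E H r (fun x => co n p.K (Sum.inl k) x.2.2) y ^ 2 ∂((tw p n).PP H) with hU
  set V : ℕ → ℝ := fun r => ∫ y, ∑ i, (tw p n).E H r (sp n p.K i) y ^ 2 ∂((tw p n).PP H) with hV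
  have gU : ∀ r (k : Fin n × Fin n), (tw p n).Gr fun y =>
      (tw p n).E H r (fun x => co n p.K (Sum.inl k) x.2.2) y ^ 2 :=
    fun r k => ((gr_co p n _).E h r).pow 2
  have gV : ∀ r (i : Fin n), (tw p n).Gr fun y => (tw p n).E H r (sp n p.K i) y ^ 2 :=
    fun r i => ((gr_sp p n _).E h r).pow 2
  have c1 : ∑ k : Fin n × Fin n, cs n p.K (Sum.inl k) = (n - 1) / 2 := by
    have := in_sym (n := n) (fun _ _ => 1 / (n : ℝ)) (fun _ _ => rfl)
    simp only [Finset.sum_const, Finset.card_univ, Fintype.card_fin, nsmul_eq_mul] at this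
    rw [Fintype.sum_prod_type]
    simp only [cs, Sum.elim_inl]
    have e : (n : ℝ) * (1 / n) = 1 := by field_simp
    rw [e] at this
    linarith
  have c2 : ∑ k : Fin p.K × Fin n, cs n p.K (Sum.inr k) = n := by
    simp only [cs, Sum.elim_inr, Finset.sum_const, Finset.card_univ, Fintype.card_prod,
      Fintype.card_fin, nsmul_eq_mul]
    push_cast
    field_simp
  have c3 : ∑ k : Fin n × Fin n, p.X.tau (fun r => ∫ y,
      (tw p n).E H r (fun x => co n p.K (Sum.inl k) x.2.2) y ^ 2 ∂((tw p n).PP H)) 0 =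
      p.X.tau U 0 := by
    rw [← p.X.g3_tau_sum]
    congr 1
    funext r
    exact (integral_finsetSum _ fun k _ => (gU r k).integrable_PP h).symm
  have c4 : ∑ k : Fin p.K × Fin n, p.X.tau (fun r => ∫ y,
      (tw p n).E H r (fun x => co n p.K (Sum.inr k) x.2.2) y ^ 2 ∂((tw p n).PP H))
        (k.1.val + 1) = p.X.tau (fun r => ((r : ℝ) - 1) / p.K * V r) 0 := by
    have e : ∀ l : Fin p.K, ∑ i : Fin n, p.X.tau (fun r => ∫ y,
        (tw p n).E H r (fun x => co n p.K (Sum.inr (l, i)) x.2.2) y ^ 2 ∂((tw p n).PP H))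
          (l.val + 1) = p.X.tau (fun r => 1 / p.K * V r) (l.val + 1) := by
      intro l
      rw [← p.X.g3_tau_sum]
      congr 1
      funext r
      rw [hV]
      simp only
      rw [integral_finsetSum _ fun i _ => (gV r i).integrable_PP h, Finset.mul_sum]
      refine Finset.sum_congr rfl fun i _ => ?_
      rw [← integral_const_mul]
      congr 1
      funext y
      simp only [co, Sum.elim_inr]
      rw [Tower.E_const_mul, mul_pow, Real.sq_sqrt (by positivity)]
      rfl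
    rw [Fintype.sum_prod_type, Finset.sum_congr rfl fun l _ => e l,
      Fin.sum_univ_eq_sum_range (fun l => p.X.tau (fun r => 1 / p.K * V r) (l + 1))]
    unfold Expo.tau
    rw [p.X_n, in_swap]
    exact Finset.sum_congr rfl fun r _ => by ring
  have c5 : ∀ r : ℕ, ((r : ℝ) - 1) / p.K * V r - U r ≤ 1 / 2 + n * (((r : ℝ) - 1) / p.K) ^ 2 / 2 := by
    intro r
    have i1 := (Tower.Gr.sum Finset.univ fun k _ => gU r k).integrable_PP h
    have i2 := (Tower.Gr.sum Finset.univ fun k _ => gV r k).integrable_PP h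
    rw [hU, hV]
    simp only
    rw [← integral_const_mul, ← integral_sub (i2.const_mul _) i1]
    refine (integral_mono ((i2.const_mul _).sub i1) (integrable_const _)
      fun y => in_point p hn h r _ y).trans ?_
    simp
  have c6 : p.X.tau (fun r => ((r : ℝ) - 1) / p.K * V r) 0 - p.X.tau U 0 ≤
      (1 - p.X.e 0) / 2 + n / (2 * (p.K : ℝ) ^ 2) *
        ∑ r ∈ Finset.Icc (0 + 1) (p.K + 1), (p.X.e r - p.X.e (r - 1)) * ((r : ℝ) - 1) ^ 2 := by
    rw [← p.X.g3_tau_sub, ← p.X.sum_W (Nat.zero_le _), Finset.sum_div, Finset.mul_sum]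
    unfold Expo.tau
    rw [p.X_n, ← Finset.sum_add_distrib]
    refine Finset.sum_le_sum fun r _ => ?_
    refine (mul_le_mul_of_nonneg_left (c5 r) (p.X.W_nonneg r)).trans (le_of_eq ?_)
    unfold Expo.W
    field_simp
  rw [in_abel] at c6
  have c7 : p.X.e (p.K + 1) = 1 := p.X.en
  have c8 : ∑ l ∈ Finset.range p.K, p.X.e (l + 1) * (2 * l + 1) =
      4 * (p.K : ℝ) ^ 2 * (∑ l ∈ Finset.range p.K, p.c l * (2 * l + 1) / (4 * (p.K : ℝ) ^ 2)) /
        p.β := by
    rw [Finset.mul_sum, Finset.sum_div]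
    refine Finset.sum_congr rfl fun l hl => ?_
    rw [p.X_e_succ (Finset.mem_range.1 hl)]
    field_simp
  rw [c7, c8] at c6
  rw [Finset.sum_sub_distrib, Finset.sum_sub_distrib, c1, c2, c3, c4]
  set S := ∑ l ∈ Finset.range p.K, p.c l * (2 * l + 1) / (4 * (p.K : ℝ) ^ 2)
  have c9 : (n : ℝ) / (2 * (p.K : ℝ) ^ 2) * (1 * (p.K : ℝ) ^ 2 - 4 * (p.K : ℝ) ^ 2 * S / p.β) =
      n / 2 - 2 * (n * S) / p.β := by
    field_simp
    ring
  rw [c9] at c6
  have := p.X.pos
  linarith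

theorem Ham_lin (n K : ℕ) (s t : ℝ) (x : St n K) :
    Ham n K s t x = s * Ham n K 1 0 x + t * Ham n K 0 1 x := by
  simp only [Ham_eq]
  ring

theorem in_derL (p : Par) (n : ℕ) :
    (tw p n).DerL Set.univ (fun θ => Ham n p.K (p.β * sin θ) (p.β * cos θ))
      (fun θ => Ham n p.K (p.β * cos θ) (-(p.β * sin θ))) := by
  obtain ⟨_, C1, h1⟩ := lg_Ham p n 1 0
  obtain ⟨_, C2, h2⟩ := lg_Ham p n 0 1
  have hβ := p.β_pos
  have key : ∀ s t : ℝ, |s| ≤ p.β → |t| ≤ p.β → ∀ x,
      |Ham n p.K s t x| ≤ p.β * (|C1| + |C2|) * (1 + (tw p n).ν x) := by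
    intro s t hs ht x
    have hν : 0 ≤ 1 + (tw p n).ν x := by linarith [(tw p n).ν_nonneg x]
    have b1 : |Ham n p.K 1 0 x| ≤ |C1| * (1 + (tw p n).ν x) :=
      (h1 x).trans (mul_le_mul_of_nonneg_right (le_abs_self _) hν)
    have b2 : |Ham n p.K 0 1 x| ≤ |C2| * (1 + (tw p n).ν x) :=
      (h2 x).trans (mul_le_mul_of_nonneg_right (le_abs_self _) hν)
    rw [Ham_lin]
    refine (abs_add_le _ _).trans ?_
    rw [abs_mul, abs_mul]
    have := mul_le_mul hs b1 (abs_nonneg _) hβ.le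
    have := mul_le_mul ht b2 (abs_nonneg _) hβ.le
    linarith
  have hs : ∀ θ, |p.β * sin θ| ≤ p.β := fun θ => by
    rw [abs_mul, abs_of_pos hβ]
    exact mul_le_of_le_one_right hβ.le (abs_sin_le_one θ)
  have hc : ∀ θ, |p.β * cos θ| ≤ p.β := fun θ => by
    rw [abs_mul, abs_of_pos hβ]
    exact mul_le_of_le_one_right hβ.le (abs_cos_le_one θ)
  refine ⟨fun t _ => (lg_Ham p n _ _).1, fun t _ => (lg_Ham p n _ _).1,
    ⟨p.β * (|C1| + |C2|), fun θ _ x => ⟨key _ _ (hs θ) (hc θ) x, ?_⟩⟩, fun θ _ x => ?_⟩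
  · refine (key _ _ (hc θ) (by rw [abs_neg]; exact hs θ) x).trans ?_
    linarith [add_one_le_exp (p.β * (|C1| + |C2|) * (1 + (tw p n).ν x))]
  · have e : (fun θ => Ham n p.K (p.β * sin θ) (p.β * cos θ) x) =
        fun θ => p.β * sin θ * Ham n p.K 1 0 x + p.β * cos θ * Ham n p.K 0 1 x := by
      funext θ
      exact Ham_lin _ _ _ _ _
    rw [e, Ham_lin n p.K (p.β * cos θ)]
    refine ((((hasDerivAt_sin θ).const_mul p.β).mul_const _).add
      (((hasDerivAt_cos θ).const_mul p.β).mul_const _)).congr_deriv ?_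
    ring

theorem in_deriv (p : Par) {n : ℕ} (hn : 0 < n) {s t : ℝ} (hs : 0 ≤ s) (ht : 0 ≤ t) :
    ∫ y, Ham n p.K t (-s) y ∂((tw p n).PP (Ham n p.K s t)) ≤
      -(s * t * (2 * (n * ∑ l ∈ Finset.range p.K,
        p.c l * (2 * l + 1) / (4 * (p.K : ℝ) ^ 2)) / p.β)) := by
  have h := lg_Ham p n s t
  have hb := mul_le_mul_of_nonneg_left (in_bracket p hn h) (mul_nonneg hs ht)
  have e : ∫ y, Ham n p.K t (-s) y ∂((tw p n).PP (Ham n p.K s t)) =
      ∑ i, wt n p.K t (-s) i * ∫ y, y.2.1 i * co n p.K i y.2.2 ∂((tw p n).PP (Ham n p.K s t)) := by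
    refine (integral_finsetSum _ fun i _ =>
      ((lg_term p n i).const_mul (wt n p.K t (-s) i)).gr.integrable_PP h).trans ?_
    exact Finset.sum_congr rfl fun i _ => integral_const_mul _ _
  rw [e]
  simp only [in_ibp]
  rw [Fintype.sum_sum_type]
  simp only [wt, Sum.elim_inl, Sum.elim_inr, lev_inl, lev_inr, ← mul_assoc, ← Finset.mul_sum] at hb ⊢
  linarith

theorem interp (p : Par) {n : ℕ} (hn : 0 < n) :
    (tw p n).A (Ham n p.K p.β 0) ≤ (tw p n).A (Ham n p.K 0 p.β) -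
      p.β * (n * ∑ l ∈ Finset.range p.K, p.c l * (2 * l + 1) / (4 * (p.K : ℝ) ^ 2)) := by
  set S : ℝ := n * ∑ l ∈ Finset.range p.K, p.c l * (2 * l + 1) / (4 * (p.K : ℝ) ^ 2) with hS
  have hβ := p.β_pos
  have hder : ∀ θ, HasDerivAt
      (fun θ => (tw p n).A (Ham n p.K (p.β * sin θ) (p.β * cos θ)) + p.β * S * sin θ ^ 2) _ θ :=
    fun θ => ((in_derL p n).hasDerivAt_A isOpen_univ (Set.mem_univ θ)).add
      (((hasDerivAt_sin θ).fun_pow 2).const_mul (p.β * S))
  obtain ⟨θ, hθ, h⟩ := exists_hasDerivAt_eq_slope _ _ pi_div_two_pos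
    (fun θ _ => (hder θ).continuousAt.continuousWithinAt) (fun θ _ => hder θ)
  have h1 : 0 ≤ sin θ := sin_nonneg_of_nonneg_of_le_pi hθ.1.le (by linarith [hθ.2, pi_pos])
  have h2 : 0 ≤ cos θ := cos_nonneg_of_mem_Icc ⟨by linarith [hθ.1, pi_pos], hθ.2.le⟩
  have h3 := in_deriv p hn (mul_nonneg hβ.le h1) (mul_nonneg hβ.le h2)
  rw [← hS] at h3
  have e : p.β * sin θ * (p.β * cos θ) * (2 * S / p.β) =
      p.β * S * ((2 : ℕ) * sin θ ^ (2 - 1) * cos θ) := by
    field_simp
    push_cast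
    ring
  rw [e] at h3
  simp only [sin_pi_div_two, cos_pi_div_two, sin_zero, cos_zero, mul_one, mul_zero, one_pow,
    sub_zero] at h
  have h4 : ((tw p n).A (Ham n p.K p.β 0) + p.β * S -
      ((tw p n).A (Ham n p.K 0 p.β) + p.β * S * 0 ^ 2)) / (π / 2) ≤ 0 := by
    rw [← h]
    linarith
  rw [div_nonpos_iff] at h4
  rcases h4 with h4 | h4
  · linarith [h4.2, pi_div_two_pos]
  · linarith [h4.1]

end Crest.Agent.R339.G
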