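import Crest.Agent.R339.G.Defs

/-! # Row 339, part G: the end point `θ = π/2` dominates the ground state energy -/

set_option autoImplicit false

namespace Crest.Agent.R339.G

open MeasureTheory ProbabilityTheory Real Crest.MathPhysics.SpinGlass Crest.Agent.R164

/-- the couplings among the Gaussian coordinates have the law `gaussianCouplings`
(`gpi_map_inj` with `ι = Sum.inl`, then currying: `MeasurableEquiv.curry`/`measurePreserving_piCurry`,
or `Measure.pi_eq`/`Measure.pi_pi`). -/
theorem mp_coup (n K : ℕ) :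
    MeasurePreserving (fun (g : Ix n K → ℝ) (i j : Fin n) => g (Sum.inl (i, j))) (gpi (Ix n K))
      (gaussianCouplings n) := by
  have h1 : MeasurePreserving (fun (g : Ix n K → ℝ) (a : Fin n × Fin n) => g (Sum.inl a))
      (gpi (Ix n K)) (gpi (Fin n × Fin n)) :=
    ⟨by fun_prop, gpi_map_inj _ Sum.inl_injective⟩
  have h2 : MeasurePreserving (MeasurableEquiv.curry (Fin n) (Fin n) ℝ) (gpi (Fin n × Fin n))
      (gaussianCouplings n) := by
    refine ⟨(MeasurableEquiv.curry (Fin n) (Fin n) ℝ).measurable, ?_⟩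
    have := Measure.infinitePi_map_curry (fun (_ _ : Fin n) => gaussianReal 0 1)
    simp only [Measure.infinitePi_eq_pi] at this
    exact this
  exact h2.comp h1

theorem Lo_cont (n : ℕ) : Continuous (maxPairEnergy n) := by
  unfold maxPairEnergy
  refine Continuous.finset_sup'_apply (f := fun σ J => pairEnergy n J σ) Finset.univ_nonempty
    fun σ _ => ?_
  unfold pairEnergy
  refine continuous_const.mul (continuous_finsetSum _ fun i _ => continuous_finsetSum _ fun j _ => ?_)
  split_ifs <;> fun_prop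

theorem Lo_lme {A : Type} [Fintype A] [Nonempty A] (f : A → ℝ) {B : ℝ} (h : ∀ a, |f a| ≤ B) :
    |log ((Fintype.card A : ℝ)⁻¹ * ∑ a, exp (f a))| ≤ B := by
  have hc : (0 : ℝ) < Fintype.card A := by exact_mod_cast Fintype.card_pos
  have hs : 0 < ∑ a, exp (f a) := Finset.sum_pos (fun _ _ => exp_pos _) Finset.univ_nonempty
  have hp : 0 < (Fintype.card A : ℝ)⁻¹ * ∑ a, exp (f a) := by positivity
  rw [abs_le]
  constructor
  · rw [le_log_iff_exp_le hp, le_inv_mul_iff₀ hc]
    have := Finset.card_nsmul_le_sum Finset.univ (fun a => exp (f a)) (exp (-B))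
      fun a _ => exp_le_exp.2 (abs_le.1 (h a)).1
    simpa using this
  · rw [log_le_iff_le_exp hp, inv_mul_le_iff₀ hc]
    have := Finset.sum_le_card_nsmul Finset.univ (fun a => exp (f a)) (exp B)
      fun a _ => exp_le_exp.2 (abs_le.1 (h a)).2
    simpa using this

theorem Lo_ge {A : Type} [Fintype A] [Nonempty A] (f : A → ℝ) (a : A) :
    f a - log (Fintype.card A) ≤ log ((Fintype.card A : ℝ)⁻¹ * ∑ a, exp (f a)) := by
  have hc : (0 : ℝ) < Fintype.card A := by exact_mod_cast Fintype.card_pos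
  have hs : 0 < ∑ a, exp (f a) := Finset.sum_pos (fun _ _ => exp_pos _) Finset.univ_nonempty
  rw [log_mul (inv_pos.2 hc).ne' hs.ne', log_inv]
  have : f a ≤ log (∑ a, exp (f a)) := by
    rw [le_log_iff_exp_le hs]
    exact Finset.single_le_sum (f := fun a => exp (f a)) (fun _ _ => (exp_pos _).le)
      (Finset.mem_univ a)
  linarith

theorem Lo_le_exp {a C t : ℝ} (h : a ≤ C * (1 + t)) : a ≤ exp (C * (1 + t)) := by
  have := add_one_le_exp (C * (1 + t))
  linarith

/-- `A_freeze` for the family `H g x = β · pairEnergy (g ∘ inl) x.2.2` (use `Ham_eq`), `A_plain` for fixed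
`g` (the law of the disorder is a Dirac mass, so `A (H g) = log (2^{-n} Σ_σ exp (β E_g σ))
≥ β max E_g - n log 2`), Jensen `Tower.t3_jensen` (`∫ Y ≤ m⁻¹ log ∫ exp (m Y)`; `|Y g| ≤ C (1 + ‖g‖)`,
integrability by `g2_int_gpi` / `integrable_exp_norm_gpi`), and `mp_coup`. -/
theorem lower (p : Par) (n : ℕ) :
    p.β * (∫ J, maxPairEnergy n J ∂(gaussianCouplings n)) - n * log 2 ≤
      (tw p n).A (Ham n p.K p.β 0) := by
  obtain ⟨hHm, C, hC⟩ := lg_Ham p n p.β 0
  have hβ := p.β_pos
  have hm := p.X.m_pos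
  have hHam : ∀ (g : Ix n p.K → ℝ) σ, Ham n p.K p.β 0 ((), g, σ) =
      p.β * pairEnergy n (fun i j => g (Sum.inl (i, j))) σ := by
    intro g σ
    rw [Ham_eq, zero_mul, add_zero]
  have hC' : ∀ (g : Ix n p.K → ℝ) σ, |Ham n p.K p.β 0 ((), g, σ)| ≤ C * (1 + ‖g‖) :=
    fun g σ => hC ((), g, σ)
  obtain ⟨hY, hA⟩ := A_freeze (X := p.X) (P := Measure.dirac ()) (lev := lev p n)
    (A := Fin n → Bool) (H := fun g x => Ham n p.K p.β 0 ((), g, x.2.2))
    (hHm.comp (measurable_const.prodMk (measurable_fst.prodMk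
      (measurable_snd.comp (measurable_snd.comp measurable_snd))))) (C := |C|)
    (fun g x => (hC' g x.2.2).trans (by
      have h1 := norm_nonneg g
      have h2 := norm_nonneg x.2.1
      exact mul_le_mul (le_abs_self C) (by linarith) (by linarith) (abs_nonneg C)))
    (fun g g' x h => by
      rw [hHam, hHam]
      congr 2
      funext i j
      exact h _ rfl)
    (fun _ _ _ _ _ _ => rfl)
  obtain ⟨Y, hYdef⟩ : ∃ Y : (Ix n p.K → ℝ) → ℝ, Y = fun g =>
    (tw p n).A fun x => Ham n p.K p.β 0 ((), g, x.2.2) := ⟨_, rfl⟩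
  have hYe : ∀ g, Y g = log ((Fintype.card (Fin n → Bool) : ℝ)⁻¹ *
      ∑ σ, exp (Ham n p.K p.β 0 ((), g, σ))) := by
    intro g
    have := A_plain (X := p.X) (P := Measure.dirac ()) (lev := lev p n) (A := Fin n → Bool)
      (F := fun _ σ => Ham n p.K p.β 0 ((), g, σ)) fun _ => measurable_const
    rw [integral_const, probReal_univ, one_smul, log_exp, ← mul_assoc, inv_mul_cancel₀ hm.ne',
      one_mul] at this
    rw [hYdef]
    exact this
  have hYm : Measurable Y := by rw [hYdef]; exact hY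
  have hA' : (tw p n).A (Ham n p.K p.β 0) =
      p.X.m⁻¹ * log (∫ g, exp (p.X.m * Y g) ∂(gpi (Ix n p.K))) := by
    rw [hYdef]; exact hA
  have hYb : ∀ g, |Y g| ≤ C * (1 + ‖g‖) := fun g => by
    rw [hYe]; exact Lo_lme _ (hC' g)
  have I1 : Integrable Y (gpi (Ix n p.K)) :=
    g2_int_gpi hYm fun g => Lo_le_exp (hYb g)
  have I2 : Integrable (fun g => exp (p.X.m * Y g)) (gpi (Ix n p.K)) := by
    refine g2_int_gpi (hYm.const_mul _).exp (C := p.X.m * C) fun g => ?_
    rw [abs_of_pos (exp_pos _), mul_assoc]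
    exact exp_le_exp.2 (mul_le_mul_of_nonneg_left ((le_abs_self _).trans (hYb g)) hm.le)
  have hJ := Tower.t3_jensen (I1.const_mul p.X.m) I2
  rw [integral_const_mul] at hJ
  have hmp := mp_coup n p.K
  have hMm : Measurable fun g : Ix n p.K → ℝ =>
      maxPairEnergy n fun i j => g (Sum.inl (i, j)) := (Lo_cont n).measurable.comp hmp.measurable
  have hσ : ∀ g : Ix n p.K → ℝ, ∃ σ, p.β * maxPairEnergy n (fun i j => g (Sum.inl (i, j))) =
      Ham n p.K p.β 0 ((), g, σ) := by
    intro g
    obtain ⟨σ, -, hσ⟩ := Finset.exists_mem_eq_sup' Finset.univ_nonempty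
      (pairEnergy n fun i j => g (Sum.inl (i, j)))
    exact ⟨σ, by rw [hHam, maxPairEnergy, hσ]⟩
  have I3 : Integrable (fun g : Ix n p.K → ℝ =>
      p.β * maxPairEnergy n fun i j => g (Sum.inl (i, j))) (gpi (Ix n p.K)) := by
    refine g2_int_gpi (hMm.const_mul _) (C := C) fun g => Lo_le_exp ?_
    obtain ⟨σ, hσ⟩ := hσ g
    rw [hσ]
    exact hC' g σ
  have h4 := integral_mono (I3.sub (integrable_const (n * log 2))) I1 (fun g => by
    obtain ⟨σ, hσ⟩ := hσ g
    have := Lo_ge (fun σ => Ham n p.K p.β 0 ((), g, σ)) σ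
    simp only [Pi.sub_apply]
    rw [hσ, hYe]
    refine le_trans (le_of_eq ?_) this
    simp)
  rw [integral_sub' I3 (integrable_const _), integral_const_mul, integral_const, probReal_univ,
    one_smul] at h4
  rw [← hmp.map_eq, integral_map hmp.measurable.aemeasurable
    (Lo_cont n).measurable.aestronglyMeasurable, hA', le_inv_mul_iff₀ hm]
  exact (mul_le_mul_of_nonneg_left h4 hm.le).trans hJ

end Crest.Agent.R339.G
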