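import Crest.Agent.R339.G.Defs

/-! # Row 339, part G: the end point `θ = 0` factorises over the sites -/

set_option autoImplicit false

namespace Crest.Agent.R339.G

open MeasureTheory ProbabilityTheory Real Crest.MathPhysics.SpinGlass Crest.Agent.R164

/-- measurable and bounded above by `|x| + C` -/
def Adm (F : ℝ → ℝ) : Prop := Measurable F ∧ ∃ C : ℝ, ∀ x, F x ≤ |x| + C

theorem up_integrable_exp_abs (c : ℝ) :
    Integrable (fun x : ℝ => exp (c * |x|)) (gaussianReal 0 1) := by
  have ha := integrable_exp_mul_gaussianReal (μ := 0) (v := 1) c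
  have hb := integrable_exp_mul_gaussianReal (μ := 0) (v := 1) (-c)
  refine (ha.add hb).mono' (by fun_prop) (Filter.Eventually.of_forall fun x => ?_)
  rw [Real.norm_eq_abs, abs_of_pos (exp_pos _)]
  have := exp_pos (c * x)
  have := exp_pos (-c * x)
  rcases abs_cases x with h | h
  · simp only [Pi.add_apply, h.1]; linarith
  · simp only [Pi.add_apply, h.1]
    have : c * -x = -c * x := by ring
    rw [this]; linarith

theorem up_bound {F : ℝ → ℝ} {C : ℝ} (hC : ∀ x, F x ≤ |x| + C) {c : ℝ} (hc : 0 < c) (Δ x g : ℝ) :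
    exp (c * F (x + √Δ * g)) ≤ exp (c * (|x| + C)) * exp (c * √Δ * |g|) := by
  rw [← exp_add]
  apply exp_le_exp.2
  have h1 := hC (x + √Δ * g)
  have h2 := abs_add_le x (√Δ * g)
  rw [abs_mul, abs_of_nonneg (sqrt_nonneg Δ)] at h2
  have h3 : F (x + √Δ * g) ≤ |x| + C + √Δ * |g| := by linarith
  have h4 := mul_le_mul_of_nonneg_left h3 hc.le
  linarith

theorem Adm.integrable {F : ℝ → ℝ} (h : Adm F) {c : ℝ} (hc : 0 < c) (Δ x : ℝ) :
    Integrable (fun g => exp (c * F (x + √Δ * g))) (gaussianReal 0 1) := by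
  obtain ⟨hm, C, hC⟩ := h
  have h2 := (up_integrable_exp_abs (c * √Δ)).const_mul (exp (c * (|x| + C)))
  have h1 : Measurable fun g : ℝ => exp (c * F (x + √Δ * g)) := by fun_prop
  refine h2.mono' h1.aestronglyMeasurable (Filter.Eventually.of_forall fun g => ?_)
  rw [Real.norm_eq_abs, abs_of_pos (exp_pos _)]
  exact up_bound hC hc Δ x g

/-- measurability by `StronglyMeasurable.integral_prod_right`; the bound from
`exp (c F(x + √Δ g)) ≤ exp (c (|x| + C)) · exp (c √Δ |g|)` and `integral_exp_pos` -/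
theorem Adm.chStep {F : ℝ → ℝ} (h : Adm F) {c : ℝ} (hc : 0 < c) (Δ : ℝ) : Adm (chStep c Δ F) := by
  have hint := fun x => h.integrable hc Δ x
  obtain ⟨hm, C, hC⟩ := h
  constructor
  · have h1 : Measurable fun p : ℝ × ℝ => exp (c * F (p.1 + √Δ * p.2)) := by fun_prop
    have h2 : Measurable fun x => ∫ g, exp (c * F (x + √Δ * g)) ∂(gaussianReal 0 1) :=
      (h1.stronglyMeasurable.integral_prod_right' (ν := gaussianReal 0 1)).measurable
    exact (measurable_log.comp h2).const_mul _
  · refine ⟨C + c⁻¹ * log (∫ g, exp (c * √Δ * |g|) ∂(gaussianReal 0 1)), fun x => ?_⟩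
    have hp := integral_exp_pos (hint x)
    have hq := integral_exp_pos (up_integrable_exp_abs (c * √Δ))
    have h3 : ∫ g, exp (c * F (x + √Δ * g)) ∂(gaussianReal 0 1) ≤
        exp (c * (|x| + C)) * ∫ g, exp (c * √Δ * |g|) ∂(gaussianReal 0 1) := by
      rw [← integral_const_mul]
      exact integral_mono (hint x) ((up_integrable_exp_abs (c * √Δ)).const_mul _)
        fun g => up_bound hC hc Δ x g
    have h4 := log_le_log hp h3
    rw [log_mul (exp_pos _).ne' hq.ne', log_exp] at h4
    have h5 := mul_le_mul_of_nonneg_left h4 (inv_pos.2 hc).le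
    rw [mul_add, inv_mul_cancel_left₀ hc.ne'] at h5
    unfold R339.chStep
    linarith

theorem Adm.phi {F : ℝ → ℝ} (h : Adm F) {c : ℕ → ℝ} (hc : ∀ l, 0 < c l) (Δ : ℝ) (r l : ℕ) :
    Adm (Phi F Δ c r l) := by
  induction r generalizing l with
  | zero => exact h
  | succ r ih => exact (ih (l + 1)).chStep (hc l) Δ

/-- the field at site `i` after the first `l` layers -/
noncomputable def fld (n K : ℕ) (l : ℕ) (i : Fin n) (x : St n K) : ℝ :=
  √(1 / K) * ∑ j : Fin K, if j.val < l then x.2.1 (Sum.inr (j, i)) else 0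

theorem up_meas_fld (n K l : ℕ) (i : Fin n) : Measurable (fld n K l i) := by
  unfold fld
  refine (Finset.measurable_sum _ fun j _ => ?_).const_mul _
  split_ifs <;> fun_prop

theorem up_lg_fld (p : Par) (n l : ℕ) (i : Fin n) : (tw p n).LG (fld n p.K l i) := by
  unfold fld
  refine (Tower.LG.sum Finset.univ fun j _ => ?_).const_mul _
  split_ifs
  · exact lg_coord _
  · exact Tower.LG.const 0

theorem up_fld_mix (p : Par) (n : ℕ) {l : ℕ} (hl : l < p.K) (i : Fin n) (x : St n p.K)
    (g : Ix n p.K → ℝ) :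
    fld n p.K (l + 1) i (x.1, mixg (lev p n) (l + 1) x.2.1 g, x.2.2) =
      fld n p.K l i x + √(1 / p.K) * g (Sum.inr (⟨l, hl⟩, i)) := by
  unfold fld
  rw [← mul_add]
  congr 1
  have e : g (Sum.inr (⟨l, hl⟩, i)) =
      ∑ j : Fin p.K, if j = ⟨l, hl⟩ then g (Sum.inr (j, i)) else 0 := by
    rw [Finset.sum_ite_eq']
    simp
  rw [e, ← Finset.sum_add_distrib]
  refine Finset.sum_congr rfl fun j _ => ?_
  simp only [mixg, lev_inr, Fin.ext_iff]
  split_ifs <;> first | omega | simp

/-- product formula: `gpi_map_inj` with `ι i = inr (l, i)` and `integral_fintype_prod_eq_prod` -/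
theorem integral_layer (n K : ℕ) (l : Fin K) {f : Fin n → ℝ → ℝ} (hf : ∀ i, Measurable (f i)) :
    ∫ g, ∏ i, f i (g (Sum.inr (l, i))) ∂(gpi (Ix n K)) = ∏ i, ∫ g, f i g ∂(gaussianReal 0 1) := by
  have hinj : Function.Injective fun i : Fin n => (Sum.inr (l, i) : Ix n K) := by
    intro i j hij
    simpa using hij
  have hmap := gpi_map_inj (I := Ix n K) (fun i : Fin n => (Sum.inr (l, i) : Ix n K)) hinj
  have hm : Measurable fun (g : Ix n K → ℝ) (a : Fin n) => g (Sum.inr (l, a)) := by fun_prop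
  have hf' : Measurable fun g : Fin n → ℝ => ∏ i, f i (g i) :=
    Finset.measurable_prod _ fun i _ => (hf i).comp (measurable_pi_apply i)
  rw [← integral_fintype_prod_eq_prod (μ := fun _ : Fin n => gaussianReal 0 1) f]
  change _ = ∫ g, ∏ i, f i (g i) ∂(gpi (Fin n))
  rw [← hmap, integral_map hm.aemeasurable hf'.aestronglyMeasurable]

/-- The recursion of `β Σ_i F(z_i)`.  Downward induction on `l ≤ K` (induction on `r = K - l`).
For `l = K`: the Hamiltonian only depends on the levels `< K + 1`, so `Tower.X_local` (with the constant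
Hamiltonian) and `Tower.X_const` apply.  Step: `Tower.X_step`, `Tower.step`, `integral_mix_mid`,
`Par.X_e_succ`, `fld (l+1) i (mix …) = fld l i x + √(1/K) g (inr (l, i))`, `exp_sum`, `integral_layer`,
`Real.log_prod` (each factor is positive by `Adm.integrable`, `integral_exp_pos`). -/
theorem X_fld (p : Par) (n : ℕ) {F : ℝ → ℝ} (h : Adm F) (r l : ℕ) (hrl : l + r = p.K)
    (x : St n p.K) :
    (tw p n).X (fun y => p.β * ∑ i, F (fld n p.K p.K i y)) (l + 1) x =
      p.β * ∑ i, Phi F (1 / p.K) p.c r l (fld n p.K l i x) := by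
  induction r generalizing l x with
  | zero =>
    have hl : l = p.K := by omega
    subst hl
    rw [Tower.X_local (H' := fun _ => p.β * ∑ i, F (fld n p.K p.K i x)) _ x, Tower.X_const]
    · rfl
    · intro y hy
      congr 1
      refine Finset.sum_congr rfl fun i _ => ?_
      congr 1
      unfold fld
      congr 1
      refine Finset.sum_congr rfl fun j _ => ?_
      rw [(hy.2.1 (Sum.inr (j, i)) (by rw [lev_inr]; have := j.2; simp only; omega))]
  | succ r ih =>
    have hl : l < p.K := by omega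
    have hA : Adm (Phi F (1 / p.K) p.c r (l + 1)) := h.phi p.c_pos _ r (l + 1)
    have hL : l + 1 < (tw p n).L := by
      change l + 1 < p.K + 1 + 2
      omega
    have hfun : (tw p n).X (fun y => p.β * ∑ i, F (fld n p.K p.K i y)) (l + 1 + 1) =
        fun y => p.β * ∑ i, Phi F (1 / p.K) p.c r (l + 1) (fld n p.K (l + 1) i y) :=
      funext fun y => ih (l + 1) (by omega) y
    have he : (tw p n).e (l + 1) = p.c l / p.β := p.X_e_succ hl
    have hβ := p.β_pos
    have hc := p.c_pos l
    rw [Tower.X_step _ _ hL, hfun]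
    unfold Tower.step
    have hmeas : Measurable fun y : St n p.K => exp ((tw p n).e (l + 1) *
        (p.β * ∑ i, Phi F (1 / p.K) p.c r (l + 1) (fld n p.K (l + 1) i y))) :=
      measurable_exp.comp (((Finset.measurable_sum _ fun i _ =>
        hA.1.comp (up_meas_fld n p.K (l + 1) i)).const_mul _).const_mul _)
    rw [integral_mix_mid hmeas (by omega) (by rw [p.X_n]; omega) x, he]
    have hpt : ∀ g : Ix n p.K → ℝ, exp (p.c l / p.β * (p.β * ∑ i, Phi F (1 / p.K) p.c r (l + 1)
        (fld n p.K (l + 1) i (x.1, mixg (lev p n) (l + 1) x.2.1 g, x.2.2)))) =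
        ∏ i, (fun i t => exp (p.c l * Phi F (1 / p.K) p.c r (l + 1)
          (fld n p.K l i x + √(1 / p.K) * t))) i (g (Sum.inr (⟨l, hl⟩, i))) := by
      intro g
      rw [← exp_sum, ← mul_assoc, div_mul_cancel₀ _ hβ.ne', Finset.mul_sum]
      congr 1
      refine Finset.sum_congr rfl fun i _ => ?_
      rw [up_fld_mix p n hl]
    simp only [hpt]
    rw [integral_layer n p.K ⟨l, hl⟩ (f := fun i t => exp (p.c l * Phi F (1 / p.K) p.c r (l + 1)
          (fld n p.K l i x + √(1 / p.K) * t))) (fun i => by have := hA.1; fun_prop),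
      Real.log_prod (fun i _ => (integral_exp_pos (hA.integrable hc _ _)).ne')]
    simp only [Phi, R339.chStep, ← Finset.mul_sum]
    field_simp

/-- `Ham 0 β ≤ β Σ_i F(z_i)` pointwise (`Ham_eq`, `σ_i z_i ≤ |z_i| ≤ F z_i`), `Tower.X_mono` (the upper
Hamiltonian is `UB`), then level `0`: `X_fld` with `l = 0` shows that level `1` is the constant
`β n Φ_0(0)`. -/
theorem upper (p : Par) (n : ℕ) {F : ℝ → ℝ} (h : Adm F) (hF : ∀ x, |x| ≤ F x) :
    (tw p n).A (Ham n p.K 0 p.β) ≤ p.β * (n * Phi F (1 / p.K) p.c p.K 0 0) := by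
  have hUB : (tw p n).UB (fun y => p.β * ∑ i, F (fld n p.K p.K i y)) := by
    refine Tower.t3_ub_mul ?_ p.β_pos.le
    obtain ⟨hm, C, hC⟩ := h
    have h1 : (tw p n).LG (fun y => ∑ i : Fin n, (|fld n p.K p.K i y| + C)) :=
      Tower.LG.sum Finset.univ fun i _ => (up_lg_fld p n p.K i).abs.add (Tower.LG.const C)
    exact Tower.UB.of_le (Finset.measurable_sum _ fun i _ => hm.comp (up_meas_fld n p.K p.K i))
      h1.ub fun y => Finset.sum_le_sum fun i _ => hC _
  have hle : ∀ y, Ham n p.K 0 p.β y ≤ p.β * ∑ i, F (fld n p.K p.K i y) := by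
    intro y
    rw [Ham_eq, zero_mul, zero_add]
    refine mul_le_mul_of_nonneg_left (Finset.sum_le_sum fun i _ => ?_) p.β_pos.le
    have e1 : fld n p.K p.K i y = √(1 / p.K) * ∑ l, y.2.1 (Sum.inr (l, i)) := by
      unfold fld
      simp only [Fin.is_lt, if_true]
    rw [← e1]
    refine (le_abs_self _).trans ?_
    rw [abs_mul, abs_spinSign, one_mul]
    exact hF _
  refine (Tower.X_mono (lg_Ham p n 0 p.β).ub hUB hle 0 _).trans (le_of_eq ?_)
  have hfun : (tw p n).X (fun y => p.β * ∑ i, F (fld n p.K p.K i y)) (0 + 1) =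
      fun _ => p.β * (n * Phi F (1 / p.K) p.c p.K 0 0) := by
    funext y
    rw [X_fld p n h p.K 0 (by omega) y]
    have e0 : ∀ i, fld n p.K 0 i y = 0 := by
      intro i
      simp [fld]
    simp only [e0, Finset.sum_const, Finset.card_univ, Fintype.card_fin, nsmul_eq_mul]
  rw [Tower.X_step _ _ (tw p n).L_pos, hfun]
  unfold Tower.step
  simp only [integral_const, probReal_univ, smul_eq_mul, one_mul, log_exp]
  rw [inv_mul_cancel_left₀ ((tw p n).e_pos' 0).ne']

end Crest.Agent.R339.G
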