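import Crest.Agent.R339.G.Lo
import Crest.Agent.R339.G.Up
import Crest.Agent.R339.G.In

/-! # Row 339, part G: Guerra's upper bound at zero temperature -/

set_option autoImplicit false

namespace Crest.Agent.R339

open MeasureTheory ProbabilityTheory Real Crest.MathPhysics.SpinGlass Crest.Agent.R164

theorem guerra : GuerraStmt := by
  intro F C K c hF h1 h2 hK hc hm ε hε
  refine ⟨1, fun n hn => ?_⟩
  let p : G.Par := ⟨K, c, max (c K) (log 2 / ε), hK, hc, hm, le_max_left _ _⟩
  have hβ := p.β_pos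
  have hA : G.Adm F := ⟨hF.measurable, C, h2⟩
  have a1 := G.lower p n
  have a2 := G.upper p n hA h1
  have a3 := G.interp p (n := n) hn
  have hn' : (0 : ℝ) < n := by exact_mod_cast hn
  have hl : log 2 ≤ p.β * ε := by
    have : log 2 / ε ≤ p.β := le_max_right _ _
    rwa [div_le_iff₀ hε] at this
  unfold optE parisi
  rw [div_le_iff₀ hn']
  refine le_of_mul_le_mul_left ?_ hβ
  have a4 : (n : ℝ) * log 2 ≤ n * (p.β * ε) := mul_le_mul_of_nonneg_left hl hn'.le
  change p.β * _ ≤ p.β * ((Phi F (1 / p.K) p.c p.K 0 0 -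
    ∑ l ∈ Finset.range p.K, p.c l * (2 * l + 1) / (4 * (p.K : ℝ) ^ 2) + ε) * n)
  nlinarith

end Crest.Agent.R339
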